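import Mathlib

/-!
Deterministic multitape Turing machines (one-way infinite tapes) and the specification of
integer multiplication in the input and output conventions of the problem.
-/

namespace Vale.Agent.Lib.P338

/-- A head move. -/
inductive Dir : Type
  | left : Dir
  | stay : Dir
  | right : Dir

/-- The new head position on a tape with cells `0, 1, 2, ...`; cell `0` is the leftmost cell
and a left move there leaves the head in place. -/
def Dir.move : Dir → ℕ → ℕ
  | Dir.left, p => p - 1
  | Dir.stay, p => p
  | Dir.right, p => p + 1

/-- A deterministic Turing machine with `k + 1` tapes (tape `0` is the first tape), state set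
`Q` and tape alphabet `Γ`.  In state `q`, reading the symbols `a i` under its heads, the
machine goes to state `(trans q a).1`, and on tape `i` writes `((trans q a).2 i).1` and moves
the head as `((trans q a).2 i).2`.  It halts when it first enters a state of `final`. -/
structure Machine (k : ℕ) (Q Γ : Type) where
  start : Q
  final : Set Q
  trans : Q → (Fin (k + 1) → Γ) → Q × (Fin (k + 1) → Γ × Dir)

/-- A configuration: state, head positions and tape contents. -/
structure Cfg (k : ℕ) (Q Γ : Type) where
  state : Q
  head : Fin (k + 1) → ℕ
  tape : Fin (k + 1) → ℕ → Γ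

variable {k : ℕ} {Q Γ : Type}

/-- One step of the machine. -/
def Machine.step (A : Machine k Q Γ) (c : Cfg k Q Γ) : Cfg k Q Γ where
  state := (A.trans c.state (fun i => c.tape i (c.head i))).1
  head := fun i => ((A.trans c.state (fun i => c.tape i (c.head i))).2 i).2.move (c.head i)
  tape := fun i => Function.update (c.tape i) (c.head i)
    ((A.trans c.state (fun i => c.tape i (c.head i))).2 i).1

/-- The configuration after `t` steps. -/
def Machine.run (A : Machine k Q Γ) (c : Cfg k Q Γ) (t : ℕ) : Cfg k Q Γ := (A.step)^[t] c

/-- Started in `c`, the machine halts after exactly `t` steps: `t` is the first time at which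
its state is final. -/
def Machine.HaltsAt (A : Machine k Q Γ) (c : Cfg k Q Γ) (t : ℕ) : Prop :=
  (A.run c t).state ∈ A.final ∧ ∀ s, s < t → (A.run c s).state ∉ A.final

/-- The symbols used to write inputs and outputs: blank, the two bits and the separator. -/
inductive Sym : Type
  | blank : Sym
  | bit : Bool → Sym
  | sep : Sym

/-- The value of a binary string of length `n`, leftmost bit most significant. -/
def val {n : ℕ} (x : Fin n → Bool) : ℕ :=
  ∑ i : Fin n, if x i then 2 ^ (n - 1 - (i : ℕ)) else 0

/-- The first tape at the start: `x`, the separator, `y`, then blanks; `σ` says how the four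
symbols are represented in the machine alphabet. -/
def inputTape (σ : Sym → Γ) {n : ℕ} (x y : Fin n → Bool) (p : ℕ) : Γ :=
  if h : p < n then σ (Sym.bit (x ⟨p, h⟩))
  else if p = n then σ Sym.sep
  else if h' : p - (n + 1) < n then σ (Sym.bit (y ⟨p - (n + 1), h'⟩))
  else σ Sym.blank

/-- The initial configuration on input `x#y`: the input on the first tape, all other tapes
blank, all heads on the leftmost cell. -/
def initCfg (A : Machine k Q Γ) (σ : Sym → Γ) {n : ℕ} (x y : Fin n → Bool) : Cfg k Q Γ where
  state := A.start
  head := fun _ => 0
  tape := fun i => if i = 0 then inputTape σ x y else fun _ => σ Sym.blank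

/-- `A` multiplies, with output tape `o`: for every `n ≥ 1` and all `x, y ∈ {0,1}^n` it halts
on input `x#y`, and then cells `0, ..., 2n-1` of tape `o` hold the `2n`-bit binary
representation of `val x * val y`, most significant bit first. -/
def Multiplies (A : Machine k Q Γ) (σ : Sym → Γ) (o : Fin (k + 1)) : Prop :=
  ∀ n : ℕ, 1 ≤ n → ∀ x y : Fin n → Bool, ∃ t, A.HaltsAt (initCfg A σ x y) t ∧
    ∀ j, j < 2 * n → (A.run (initCfg A σ x y) t).tape o j =
      σ (Sym.bit ((val x * val y).testBit (2 * n - 1 - j)))

end Vale.Agent.Lib.P338
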