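import Vale.Agent.Lib.P338.Defs

/-!
Head-travel lemmas for multitape machines and an adversary family of inputs for
multiplication, giving the lower bound `4 n - 1` on the running time.
-/

namespace Vale.Agent.Lib.P338

variable {k : ℕ} {Q Γ : Type}

theorem Dir.move_le (d : Dir) (p : ℕ) : d.move p ≤ p + 1 := by
  cases d <;> simp only [Dir.move] <;> omega

theorem Dir.le_move (d : Dir) (p : ℕ) : p ≤ d.move p + 1 := by
  cases d <;> simp only [Dir.move] <;> omega

theorem Machine.run_succ (A : Machine k Q Γ) (c : Cfg k Q Γ) (t : ℕ) :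
    A.run c (t + 1) = A.step (A.run c t) := by
  unfold Machine.run
  rw [Function.iterate_succ_apply']

theorem Machine.head_run_le (A : Machine k Q Γ) (c : Cfg k Q Γ) (i : Fin (k + 1)) (s t : ℕ) :
    (A.run c (s + t)).head i ≤ (A.run c s).head i + t := by
  induction t with
  | zero => simp
  | succ t ih =>
    rw [show s + (t + 1) = s + t + 1 by omega, A.run_succ]
    have h := Dir.move_le ((A.trans (A.run c (s + t)).state
      (fun i => (A.run c (s + t)).tape i ((A.run c (s + t)).head i))).2 i).2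
      ((A.run c (s + t)).head i)
    have h' : (A.step (A.run c (s + t))).head i ≤ (A.run c (s + t)).head i + 1 := h
    omega

theorem Machine.le_head_run (A : Machine k Q Γ) (c : Cfg k Q Γ) (i : Fin (k + 1)) (s t : ℕ) :
    (A.run c s).head i ≤ (A.run c (s + t)).head i + t := by
  induction t with
  | zero => simp
  | succ t ih =>
    rw [show s + (t + 1) = s + t + 1 by omega, A.run_succ]
    have h := Dir.le_move ((A.trans (A.run c (s + t)).state
      (fun i => (A.run c (s + t)).tape i ((A.run c (s + t)).head i))).2 i).2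
      ((A.run c (s + t)).head i)
    have h' : (A.run c (s + t)).head i ≤ (A.step (A.run c (s + t))).head i + 1 := h
    omega

/-- Two configurations agree except possibly on cells `≥ m` of the first tape. -/
def AgreeBelow (m : ℕ) (c c' : Cfg k Q Γ) : Prop :=
  c.state = c'.state ∧ c.head = c'.head ∧
    ∀ i p, (i ≠ 0 ∨ p < m) → c.tape i p = c'.tape i p

theorem Machine.step_agree (A : Machine k Q Γ) {m : ℕ} {c c' : Cfg k Q Γ}
    (h : AgreeBelow m c c') (hm : c.head 0 < m) : AgreeBelow m (A.step c) (A.step c') := by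
  obtain ⟨hs, hh, ht⟩ := h
  have hread : (fun i => c.tape i (c.head i)) = (fun i => c'.tape i (c'.head i)) := by
    funext i
    rw [← hh]
    apply ht
    by_cases hi : i = 0
    · right
      rw [hi]
      exact hm
    · left
      exact hi
  refine ⟨?_, ?_, ?_⟩
  · simp only [Machine.step]
    rw [hs, hread]
  · simp only [Machine.step]
    rw [hs, hread, hh]
  · intro i p hip
    simp only [Machine.step]
    rw [hs, hread, hh]
    by_cases hp : p = c'.head i
    · rw [hp]
      simp
    · rw [Function.update_of_ne hp, Function.update_of_ne hp]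
      exact ht i p hip

theorem Machine.run_agree (A : Machine k Q Γ) {m : ℕ} {c c' : Cfg k Q Γ}
    (h : AgreeBelow m c c') (h0 : c.head 0 = 0) :
    ∀ t, t ≤ m → AgreeBelow m (A.run c t) (A.run c' t) := by
  intro t
  induction t with
  | zero => intro _; exact h
  | succ t ih =>
    intro ht
    rw [A.run_succ, A.run_succ]
    refine A.step_agree (ih (by omega)) ?_
    have h1 := A.head_run_le c 0 0 t
    rw [zero_add] at h1
    have h2 : (A.run c 0).head 0 = 0 := h0
    omega

theorem Machine.tape_step_of_ne (A : Machine k Q Γ) (c : Cfg k Q Γ) (i : Fin (k + 1)) (p : ℕ)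
    (h : c.head i ≠ p) : (A.step c).tape i p = c.tape i p := by
  simp only [Machine.step]
  exact Function.update_of_ne (Ne.symm h) _ _

/-- If the content of a cell differs at two times, the head visits the cell in between. -/
theorem Machine.exists_visit (A : Machine k Q Γ) (c : Cfg k Q Γ) (i : Fin (k + 1)) (p : ℕ)
    {a b : ℕ} (hab : a ≤ b) (hne : (A.run c a).tape i p ≠ (A.run c b).tape i p) :
    ∃ t, a ≤ t ∧ t < b ∧ (A.run c t).head i = p := by
  by_contra hcon
  have hcon' : ∀ t, a ≤ t → t < b → (A.run c t).head i ≠ p := by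
    intro t h1 h2 h3
    exact hcon ⟨t, h1, h2, h3⟩
  have hconst : ∀ d, a + d ≤ b → (A.run c (a + d)).tape i p = (A.run c a).tape i p := by
    intro d
    induction d with
    | zero => intro _; rfl
    | succ d ih =>
      intro hd
      rw [← add_assoc, A.run_succ,
        A.tape_step_of_ne _ _ _ (hcon' (a + d) (by omega) (by omega)), ih (by omega)]
  have h1 := hconst (b - a) (by omega)
  rw [show a + (b - a) = b by omega] at h1
  exact hne h1.symm

theorem Machine.HaltsAt.unique {A : Machine k Q Γ} {c : Cfg k Q Γ} {t t' : ℕ}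
    (h : A.HaltsAt c t) (h' : A.HaltsAt c t') : t = t' := by
  rcases lt_trichotomy t t' with hlt | heq | hgt
  · exact absurd h.1 (h'.2 t hlt)
  · exact heq
  · exact absurd h'.1 (h.2 t' hgt)

theorem Machine.HaltsAt.of_agree (A : Machine k Q Γ) {m : ℕ} {c c' : Cfg k Q Γ}
    (h : AgreeBelow m c c') (h0 : c.head 0 = 0) {T : ℕ} (hT : A.HaltsAt c T) (hTm : T ≤ m) :
    A.HaltsAt c' T := by
  refine ⟨?_, ?_⟩
  · rw [← (A.run_agree h h0 T hTm).1]
    exact hT.1
  · intro s hs
    rw [← (A.run_agree h h0 s (by omega)).1]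
    exact hT.2 s hs

/-- The `n`-bit binary representation of `z`, most significant bit first. -/
def bitsOf (n z : ℕ) : Fin n → Bool := fun i => z.testBit (n - 1 - (i : ℕ))

theorem val_bitsOf (n : ℕ) : ∀ z, z < 2 ^ n → val (bitsOf n z) = z := by
  induction n with
  | zero =>
    intro z hz
    simp only [val, Finset.univ_eq_empty, Finset.sum_empty]
    simp at hz
    omega
  | succ n ih =>
    intro z hz
    have h2 : z / 2 < 2 ^ n := by
      rw [Nat.div_lt_iff_lt_mul (by norm_num)]
      rw [pow_succ] at hz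
      exact hz
    have ih' := ih (z / 2) h2
    unfold val at ih' ⊢
    rw [Fin.sum_univ_castSucc]
    have hsum : ∑ i : Fin n, (if bitsOf (n + 1) z i.castSucc
          then 2 ^ (n + 1 - 1 - ((i.castSucc : Fin (n + 1)) : ℕ)) else 0)
        = 2 * ∑ i : Fin n, (if bitsOf n (z / 2) i then 2 ^ (n - 1 - (i : ℕ)) else 0) := by
      rw [Finset.mul_sum]
      refine Finset.sum_congr rfl fun i _ => ?_
      have hi := i.isLt
      have e1 : n + 1 - 1 - ((i.castSucc : Fin (n + 1)) : ℕ) = (n - 1 - (i : ℕ)) + 1 := by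
        simp only [Fin.val_castSucc]
        omega
      have e2 : bitsOf (n + 1) z i.castSucc = bitsOf n (z / 2) i := by
        unfold bitsOf
        rw [e1, Nat.testBit_succ]
      rw [e2, e1, pow_succ]
      split_ifs <;> ring
    rw [hsum, ih']
    have e3 : bitsOf (n + 1) z (Fin.last n) = decide (z % 2 = 1) := by
      unfold bitsOf
      rw [Fin.val_last, show n + 1 - 1 - n = 0 by omega, Nat.testBit_zero]
    rw [e3, Fin.val_last, show n + 1 - 1 - n = 0 by omega]
    rcases Nat.mod_two_eq_zero_or_one z with h | h <;> simp [h] <;> omega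

theorem bitsOf_congr (n z z' r : ℕ) (h : z / 2 ^ r = z' / 2 ^ r) (i : Fin n)
    (hi : (i : ℕ) + r < n) : bitsOf n z i = bitsOf n z' i := by
  unfold bitsOf
  have e : n - 1 - (i : ℕ) = (n - 1 - (i : ℕ) - r) + r := by omega
  rw [e, ← Nat.testBit_div_two_pow, ← Nat.testBit_div_two_pow, h]

theorem inputTape_congr (σ : Sym → Γ) {n : ℕ} (x y y' : Fin n → Bool) (r : ℕ)
    (hy : ∀ i : Fin n, (i : ℕ) + r < n → y i = y' i) (p : ℕ) (hp : p + r < 2 * n + 1) :
    inputTape σ x y p = inputTape σ x y' p := by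
  unfold inputTape
  by_cases h1 : p < n
  · simp [h1]
  · by_cases h2 : p = n
    · simp [h2]
    · by_cases h3 : p - (n + 1) < n
      · simp only [h1, h2, h3, dite_false, if_false, dite_true]
        rw [hy ⟨p - (n + 1), h3⟩ (by simp only; omega)]
      · simp [h1, h2, h3]

theorem initCfg_agree (A : Machine k Q Γ) (σ : Sym → Γ) {n : ℕ} (x y y' : Fin n → Bool)
    (r : ℕ) (hy : ∀ i : Fin n, (i : ℕ) + r < n → y i = y' i) :
    AgreeBelow (2 * n + 1 - r) (initCfg A σ x y) (initCfg A σ x y') := by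
  refine ⟨rfl, rfl, ?_⟩
  intro i p hip
  simp only [initCfg]
  by_cases hi : i = 0
  · simp only [hi, if_true]
    rcases hip with h | h
    · exact absurd hi h
    · exact inputTape_congr σ x y y' r hy p (by omega)
  · simp [hi]

theorem prod_bits_aux (b c N : ℕ) (hb : 1 ≤ b) (hc : c < 4)
    (hN : N + 3 * (8 * b + c) = 16 * b * (8 * b + c)) :
    (N / (128 * (b * b)) % 2 = 1 ↔ 2 ≤ c) ∧ (N % 2 = 1 ↔ c % 2 = 1) := by
  have hs : b ≤ b * b := Nat.le_mul_self b
  have key2 : N + 24 * b + 3 * c = 128 * (b * b) + 16 * c * b := by nlinarith [hN]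
  generalize b * b = s at hs key2 ⊢
  interval_cases c
  · refine ⟨?_, by omega⟩
    rw [Nat.div_eq_of_lt (by omega)]
    omega
  · refine ⟨?_, by omega⟩
    rw [Nat.div_eq_of_lt (by omega)]
    omega
  · refine ⟨?_, by omega⟩
    rw [Nat.div_eq_of_lt_le (k := 1) (by omega) (by omega)]
    omega
  · refine ⟨?_, by omega⟩
    rw [Nat.div_eq_of_lt_le (k := 1) (by omega) (by omega)]
    omega

theorem prod_bits (n c : ℕ) (hn : 4 ≤ n) (hc : c < 4) :
    ((2 ^ n - 3) * (2 ^ (n - 1) + c)).testBit (2 * n - 1) = decide (2 ≤ c) ∧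
    ((2 ^ n - 3) * (2 ^ (n - 1) + c)).testBit 0 = decide (c % 2 = 1) := by
  obtain ⟨m, rfl⟩ : ∃ m, n = m + 4 := ⟨n - 4, by omega⟩
  have ha : 2 ^ (m + 4 - 1) = 8 * 2 ^ m := by
    rw [show m + 4 - 1 = m + 3 by omega, pow_add]
    ring
  have hn' : 2 ^ (m + 4) = 16 * 2 ^ m := by
    rw [pow_add]
    ring
  have hbig : 2 ^ (2 * (m + 4) - 1) = 128 * (2 ^ m * 2 ^ m) := by
    rw [show 2 * (m + 4) - 1 = m + m + 7 by omega, pow_add, pow_add]
    ring
  have hb1 : 1 ≤ 2 ^ m := Nat.one_le_two_pow
  rw [ha, hn']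
  have key : (16 * 2 ^ m - 3) * (8 * 2 ^ m + c) + 3 * (8 * 2 ^ m + c)
      = 16 * 2 ^ m * (8 * 2 ^ m + c) := by
    rw [← Nat.add_mul]
    congr 1
    omega
  obtain ⟨h1, h2⟩ := prod_bits_aux (2 ^ m) c _ hb1 hc key
  constructor
  · rw [Nat.testBit_eq_decide_div_mod_eq, hbig]
    exact decide_eq_decide.mpr h1
  · rw [Nat.testBit_zero]
    exact decide_eq_decide.mpr h2

/-- The first factor of the adversary inputs: `2^n - 3`. -/
def advX (n : ℕ) : Fin n → Bool := bitsOf n (2 ^ n - 3)

/-- The second factor of the adversary inputs: `2^(n-1) + c`. -/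
def advY (n c : ℕ) : Fin n → Bool := bitsOf n (2 ^ (n - 1) + c)

theorem val_advX (n : ℕ) : val (advX n) = 2 ^ n - 3 := by
  refine val_bitsOf n _ ?_
  have h : 0 < 2 ^ n := by positivity
  omega

theorem val_advY {n c : ℕ} (hn : 4 ≤ n) (hc : c < 4) : val (advY n c) = 2 ^ (n - 1) + c := by
  refine val_bitsOf n _ ?_
  obtain ⟨m, rfl⟩ : ∃ m, n = m + 4 := ⟨n - 4, by omega⟩
  have ha : 2 ^ (m + 4 - 1) = 8 * 2 ^ m := by
    rw [show m + 4 - 1 = m + 3 by omega, pow_add]
    ring
  have hn' : 2 ^ (m + 4) = 16 * 2 ^ m := by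
    rw [pow_add]
    ring
  have hb1 : 1 ≤ 2 ^ m := Nat.one_le_two_pow
  omega

theorem advY_congr2 (n c c' : ℕ) (hn : 4 ≤ n) (hc : c < 4) (hc' : c' < 4) (i : Fin n)
    (hi : (i : ℕ) + 2 < n) : advY n c i = advY n c' i := by
  refine bitsOf_congr n _ _ 2 ?_ i hi
  obtain ⟨m, rfl⟩ : ∃ m, n = m + 4 := ⟨n - 4, by omega⟩
  have ha : 2 ^ (m + 4 - 1) = 8 * 2 ^ m := by
    rw [show m + 4 - 1 = m + 3 by omega, pow_add]
    ring
  rw [ha]
  omega

theorem advY_congr1 (n h l l' : ℕ) (hn : 4 ≤ n) (hl : l < 2) (hl' : l' < 2) (i : Fin n)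
    (hi : (i : ℕ) + 1 < n) : advY n (2 * h + l) i = advY n (2 * h + l') i := by
  refine bitsOf_congr n _ _ 1 ?_ i hi
  obtain ⟨m, rfl⟩ : ∃ m, n = m + 4 := ⟨n - 4, by omega⟩
  have ha : 2 ^ (m + 4 - 1) = 8 * 2 ^ m := by
    rw [show m + 4 - 1 = m + 3 by omega, pow_add]
    ring
  rw [ha]
  omega

/-- Every machine that multiplies needs at least `4 n - 1` steps on some input of length `n`,
for every `n ≥ 4`. -/
theorem four_n_lower_bound (A : Machine k Q Γ) (σ : Sym → Γ) (hσ : Function.Injective σ)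
    (o : Fin (k + 1)) (hA : Multiplies A σ o) (n : ℕ) (hn : 4 ≤ n) :
    ∃ x y : Fin n → Bool, ∀ t, A.HaltsAt (initCfg A σ x y) t → 4 * n - 1 ≤ t := by
  have hI2 : ∀ c c', c < 4 → c' < 4 →
      AgreeBelow (2 * n - 1) (initCfg A σ (advX n) (advY n c))
        (initCfg A σ (advX n) (advY n c')) := by
    intro c c' hc hc'
    have h1 := initCfg_agree A σ (advX n) (advY n c) (advY n c') 2
      (fun i hi => advY_congr2 n c c' hn hc hc' i hi)
    rw [show 2 * n + 1 - 2 = 2 * n - 1 by omega] at h1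
    exact h1
  have hI1 : ∀ h l l', l < 2 → l' < 2 →
      AgreeBelow (2 * n) (initCfg A σ (advX n) (advY n (2 * h + l)))
        (initCfg A σ (advX n) (advY n (2 * h + l'))) := by
    intro h l l' hl hl'
    have h1 := initCfg_agree A σ (advX n) (advY n (2 * h + l)) (advY n (2 * h + l')) 1
      (fun i hi => advY_congr1 n h l l' hn hl hl' i hi)
    rw [show 2 * n + 1 - 1 = 2 * n by omega] at h1
    exact h1
  obtain ⟨h, hh⟩ : ∃ h : Bool, σ (Sym.bit h) ≠
      (A.run (initCfg A σ (advX n) (advY n 0)) (2 * n - 1)).tape o 0 := by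
    by_cases hf : σ (Sym.bit false) =
        (A.run (initCfg A σ (advX n) (advY n 0)) (2 * n - 1)).tape o 0
    · refine ⟨true, fun ht => ?_⟩
      have h1 := hσ (ht.trans hf.symm)
      simp at h1
    · exact ⟨false, hf⟩
  obtain ⟨l, hl⟩ : ∃ l : Bool, σ (Sym.bit l) ≠
      (A.run (initCfg A σ (advX n) (advY n (2 * h.toNat + 0))) (2 * n - 1)).tape o
        (2 * n - 1) := by
    by_cases hf : σ (Sym.bit false) =
        (A.run (initCfg A σ (advX n) (advY n (2 * h.toNat + 0))) (2 * n - 1)).tape o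
          (2 * n - 1)
    · refine ⟨true, fun ht => ?_⟩
      have h1 := hσ (ht.trans hf.symm)
      simp at h1
    · exact ⟨false, hf⟩
  have hc : 2 * h.toNat + l.toNat < 4 := by
    cases h <;> cases l <;> simp
  refine ⟨advX n, advY n (2 * h.toNat + l.toNat), fun T hT => ?_⟩
  obtain ⟨T', hT', hout⟩ := hA n (by omega) (advX n) (advY n (2 * h.toNat + l.toNat))
  have hTT := hT'.unique hT
  subst hTT
  rw [val_advX n, val_advY hn hc] at hout
  obtain ⟨hp1, hp2⟩ := prod_bits n (2 * h.toNat + l.toNat) hn hc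
  have hout0 : (A.run (initCfg A σ (advX n) (advY n (2 * h.toNat + l.toNat))) T').tape o 0
      = σ (Sym.bit h) := by
    have h1 := hout 0 (by omega)
    rw [Nat.sub_zero, hp1] at h1
    rw [h1]
    congr 2
    cases h <;> cases l <;> simp
  have hout1 : (A.run (initCfg A σ (advX n) (advY n (2 * h.toNat + l.toNat))) T').tape o
      (2 * n - 1) = σ (Sym.bit l) := by
    have h1 := hout (2 * n - 1) (by omega)
    rw [Nat.sub_self, hp2] at h1
    rw [h1]
    congr 2
    cases h <;> cases l <;> simp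
  have hT0 : 2 * n - 1 ≤ T' := by
    by_contra hlt
    have hc' : 2 * (!h).toNat + 0 < 4 := by
      cases h <;> simp
    have hag := hI2 (2 * h.toNat + l.toNat) (2 * (!h).toNat + 0) hc hc'
    have hT2 := Machine.HaltsAt.of_agree A hag rfl hT (by omega)
    obtain ⟨T2, hT2', hout2⟩ := hA n (by omega) (advX n) (advY n (2 * (!h).toNat + 0))
    have hTT2 := hT2'.unique hT2
    subst hTT2
    rw [val_advX n, val_advY hn hc'] at hout2
    have h3 := hout2 0 (by omega)
    rw [Nat.sub_zero, (prod_bits n _ hn hc').1] at h3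
    have e := (A.run_agree hag rfl T2 (by omega)).2.2 o 0 (Or.inr (by omega))
    rw [hout0, h3] at e
    have h4 := hσ e
    cases h <;> simp at h4
  have htop : (A.run (initCfg A σ (advX n) (advY n (2 * h.toNat + l.toNat))) (2 * n - 1)).tape
      o 0 = (A.run (initCfg A σ (advX n) (advY n 0)) (2 * n - 1)).tape o 0 :=
    (A.run_agree (hI2 _ 0 hc (by norm_num)) rfl (2 * n - 1) le_rfl).2.2 o 0
      (Or.inr (by omega))
  have hbot : (A.run (initCfg A σ (advX n) (advY n (2 * h.toNat + l.toNat))) (2 * n - 1)).tape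
      o (2 * n - 1) = (A.run (initCfg A σ (advX n) (advY n (2 * h.toNat + 0)))
        (2 * n - 1)).tape o (2 * n - 1) :=
    (A.run_agree (hI1 h.toNat l.toNat 0 (by cases l <;> simp) (by norm_num)) rfl (2 * n - 1)
      (by omega)).2.2 o (2 * n - 1) (Or.inr (by omega))
  obtain ⟨t1, h1a, h1b, h1c⟩ := A.exists_visit _ o 0 hT0
    (by rw [htop, hout0]; exact fun e => hh e.symm)
  obtain ⟨t2, h2a, h2b, h2c⟩ := A.exists_visit _ o (2 * n - 1) hT0
    (by rw [hbot, hout1]; exact fun e => hl e.symm)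
  rcases le_total t1 t2 with h12 | h12
  · have h5 := A.head_run_le (initCfg A σ (advX n) (advY n (2 * h.toNat + l.toNat))) o t1
      (t2 - t1)
    rw [show t1 + (t2 - t1) = t2 by omega, h1c, h2c] at h5
    omega
  · have h5 := A.le_head_run (initCfg A σ (advX n) (advY n (2 * h.toNat + l.toNat))) o t2
      (t1 - t2)
    rw [show t2 + (t1 - t2) = t1 by omega, h1c, h2c] at h5
    omega

end Vale.Agent.Lib.P338
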